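import Mathlib

/-! # P057: numerics of the small constant -/

namespace Vale.Agent.P057.H336

open Real

theorem log_nat_le (x : ℝ) (hx : 0 < x) : Real.log x ≤ x := by
  have := Real.log_le_sub_one_of_pos hx
  linarith

theorem log_fact_le (v : ℕ) (hv : 1 ≤ v) :
    Real.log (v.factorial : ℝ) ≤ v * (2 * Real.sqrt v) := by
  have hv0 : (0 : ℝ) < v := by exact_mod_cast hv
  have h1 : ((v.factorial : ℕ) : ℝ) ≤ (v : ℝ) ^ v := by exact_mod_cast Nat.factorial_le_pow v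
  have h2 : Real.log (v.factorial : ℝ) ≤ Real.log ((v : ℝ) ^ v) :=
    Real.log_le_log (by exact_mod_cast Nat.factorial_pos v) h1
  rw [Real.log_pow] at h2
  have h3 : Real.log (v : ℝ) ≤ 2 * Real.sqrt v := by
    have h4 := log_nat_le (Real.sqrt v) (Real.sqrt_pos.2 hv0)
    have h5 : Real.log (v : ℝ) = 2 * Real.log (Real.sqrt v) := by
      rw [Real.log_sqrt hv0.le]
      ring
    rw [h5]
    linarith
  exact h2.trans (mul_le_mul_of_nonneg_left h3 hv0.le)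

theorem two_mul_tri (v : ℕ) : 2 * (v * (v - 1) / 2) = v * (v - 1) :=
  Nat.mul_div_cancel' (Nat.even_mul_pred_self v).two_dvd

/-- the choice of the Vandermonde size -/
theorem exists_v (θ : ℝ) (hθ : 0 < θ) : ∃ v : ℕ, 3 ≤ v ∧
    Real.log (v.factorial : ℝ) ≤ θ * ((v * (v - 1) / 2 : ℕ) : ℝ) := by
  obtain ⟨m, hm⟩ := exists_nat_ge ((8 / θ) ^ 2)
  refine ⟨m + 3, by omega, ?_⟩
  set v : ℕ := m + 3 with hv
  have hv3 : (3 : ℝ) ≤ v := by
    rw [hv]
    push_cast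
    have : (0 : ℝ) ≤ m := Nat.cast_nonneg m
    linarith
  have hv0 : (0 : ℝ) < v := by linarith
  have hE : (((v * (v - 1) / 2 : ℕ)) : ℝ) = v * (v - 1) / 2 := by
    have h1 := two_mul_tri v
    have h2 : (2 : ℝ) * ((v * (v - 1) / 2 : ℕ) : ℝ) = v * ((v - 1 : ℕ) : ℝ) := by exact_mod_cast h1
    rw [Nat.cast_sub (by omega : 1 ≤ v)] at h2
    push_cast at h2 ⊢
    linarith
  rw [hE]
  refine (log_fact_le v (by omega)).trans ?_
  have hs : 8 / θ ≤ Real.sqrt v := by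
    apply Real.le_sqrt_of_sq_le
    refine hm.trans ?_
    rw [hv]
    push_cast
    linarith
  have hs2 : Real.sqrt v * Real.sqrt v = v := Real.mul_self_sqrt hv0.le
  rw [div_le_iff₀ hθ] at hs
  have hs0 : 0 ≤ Real.sqrt v := Real.sqrt_nonneg _
  -- 8 √v ≤ θ v
  have h1 : 8 * Real.sqrt v ≤ θ * v := by
    have := mul_le_mul_of_nonneg_right hs hs0
    nlinarith
  have h2 : 2 * Real.sqrt v ≤ θ * ((v - 1) / 2) := by nlinarith
  have h3 := mul_le_mul_of_nonneg_left h2 hv0.le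
  linarith

/-- all numerical conditions at once; `N = v!`, `E = v (v-1) / 2`, `r = D / E + 1`, `d = r E`,
`L = D ^ 9`, `w = 9 d² D` -/
theorem num (θ : ℝ) (hθ : 0 < θ) : ∃ v D0 : ℕ, 3 ≤ v ∧ 1 ≤ D0 ∧ ∀ D : ℕ, D0 ≤ D →
    D + 1 ≤ (D / (v * (v - 1) / 2) + 1) * (v * (v - 1) / 2) ∧
    (((D / (v * (v - 1) / 2) + 1 : ℕ)) : ℝ) * Real.log (v.factorial : ℝ) + 2 * Real.log 2 ≤
      θ * D * Real.log 2 ∧
    v.factorial * D ^ 9 ≤ D ^ 10 ∧ v.factorial * (D + 5) ≤ D ^ 10 ∧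
    (D / (v * (v - 1) / 2) + 1) * (v * (v - 1) / 2) < D ^ 9 ∧
    (D ^ 9) ^ (((D / (v * (v - 1) / 2) + 1) * (v * (v - 1) / 2)) *
      ((D / (v * (v - 1) / 2) + 1) * (v * (v - 1) / 2))) <
      2 ^ (9 * (((D / (v * (v - 1) / 2) + 1) * (v * (v - 1) / 2)) *
      ((D / (v * (v - 1) / 2) + 1) * (v * (v - 1) / 2))) * D) ∧
    ∀ m : ℝ, m ≤ ((D : ℝ) + 2) ^ 2 * (Real.log (v.factorial : ℝ) + Real.log ((D : ℝ) + 2) + 1) →
      2 * ((((D / (v * (v - 1) / 2) + 1) * (v * (v - 1) / 2) : ℕ)) : ℝ) ^ 2 *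
        ((((9 * (((D / (v * (v - 1) / 2) + 1) * (v * (v - 1) / 2)) *
      ((D / (v * (v - 1) / 2) + 1) * (v * (v - 1) / 2))) * D : ℕ) : ℝ) + 1) * m) <
        ((D ^ 9 : ℕ) : ℝ) := by
  have hl2 : 0 < Real.log 2 := Real.log_pos (by norm_num)
  obtain ⟨v, hv, hlog⟩ := exists_v (θ * Real.log 2 / 2) (by positivity)
  set E : ℕ := v * (v - 1) / 2 with hE
  set N : ℕ := v.factorial with hN
  have hE1 : 1 ≤ E := by
    have h1 := two_mul_tri v
    have h2 : 3 * 2 ≤ v * (v - 1) := Nat.mul_le_mul hv (by omega)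
    omega
  have hN1 : 1 ≤ N := Nat.factorial_pos v
  have hNR : (1 : ℝ) ≤ N := by exact_mod_cast hN1
  have hlogN : 0 ≤ Real.log (N : ℝ) := Real.log_nonneg hNR
  obtain ⟨D1, hD1⟩ := exists_nat_ge ((Real.log (N : ℝ) + 2 * Real.log 2) / (θ * Real.log 2 / 2))
  refine ⟨v, max (max E N) (max 2000 D1), hv, ?_, fun D hD => ?_⟩
  · exact le_trans (by norm_num : 1 ≤ 2000) (le_trans (le_max_left _ _) (le_max_right _ _))
  have hDE : E ≤ D := le_trans (le_trans (le_max_left _ _) (le_max_left _ _)) hD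
  have hDN : N ≤ D := le_trans (le_trans (le_max_right _ _) (le_max_left _ _)) hD
  have hD2 : 2000 ≤ D := le_trans (le_trans (le_max_left _ _) (le_max_right _ _)) hD
  have hDD1 : D1 ≤ D := le_trans (le_trans (le_max_right _ _) (le_max_right _ _)) hD
  set r : ℕ := D / E + 1 with hr
  have hd1 : D + 1 ≤ r * E := by
    have := Nat.lt_mul_div_succ D (b := E) (by omega)
    rw [hr, mul_comm]
    omega
  have hd2 : r * E ≤ 2 * D := by
    have h1 : D / E * E ≤ D := Nat.div_mul_le_self D E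
    have h2 : r * E = D / E * E + E := by rw [hr]; ring
    omega
  have hDR : (2000 : ℝ) ≤ D := by exact_mod_cast hD2
  have hD0R : (0 : ℝ) < D := by linarith
  refine ⟨hd1, ?_, ?_, ?_, ?_, ?_, ?_⟩
  · -- cost
    have hER : (0 : ℝ) < E := by exact_mod_cast hE1
    have h1 : ((D / E : ℕ) : ℝ) ≤ (D : ℝ) / E := Nat.cast_div_le
    have h2 : (((r : ℕ)) : ℝ) ≤ (D : ℝ) / E + 1 := by
      rw [hr]
      push_cast
      linarith
    have h3 := mul_le_mul_of_nonneg_right h2 hlogN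
    have h4 : (D : ℝ) / E * Real.log (N : ℝ) ≤ (D : ℝ) / E * (θ * Real.log 2 / 2 * (E : ℝ)) :=
      mul_le_mul_of_nonneg_left hlog (by positivity)
    have h5 : (D : ℝ) / E * (θ * Real.log 2 / 2 * (E : ℝ)) = θ * Real.log 2 / 2 * D := by
      field_simp
    have h6 : Real.log (N : ℝ) + 2 * Real.log 2 ≤ D * (θ * Real.log 2 / 2) := by
      have h7 : (Real.log (N : ℝ) + 2 * Real.log 2) / (θ * Real.log 2 / 2) ≤ D :=
        hD1.trans (by exact_mod_cast hDD1)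
      rwa [div_le_iff₀ (by positivity)] at h7
    nlinarith
  · calc N * D ^ 9 ≤ D * D ^ 9 := Nat.mul_le_mul_right _ hDN
      _ = D ^ 10 := by ring
  · calc N * (D + 5) ≤ D * (D * D) := Nat.mul_le_mul hDN (by nlinarith)
      _ = D ^ 3 := by ring
      _ ≤ D ^ 10 := Nat.pow_le_pow_right (by omega) (by norm_num)
  · calc r * E ≤ 2 * D := hd2
      _ < D * D := by nlinarith
      _ = D ^ 2 := by ring
      _ ≤ D ^ 9 := Nat.pow_le_pow_right (by omega) (by norm_num)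
  · have h1 : D < 2 ^ D := Nat.lt_two_pow_self
    have hpos : 0 < r * E * (r * E) := Nat.mul_pos (by omega) (by omega)
    calc (D ^ 9) ^ (r * E * (r * E)) = D ^ (9 * (r * E * (r * E))) := by rw [← pow_mul]
      _ < (2 ^ D) ^ (9 * (r * E * (r * E))) := Nat.pow_lt_pow_left h1 (by omega)
      _ = 2 ^ (9 * (r * E * (r * E)) * D) := by rw [← pow_mul, mul_comm]
  · intro m hm
    have hdR : ((r * E : ℕ) : ℝ) ≤ 2 * D := by exact_mod_cast hd2
    have hd0 : (0 : ℝ) ≤ ((r * E : ℕ) : ℝ) := Nat.cast_nonneg _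
    have hB : Real.log (N : ℝ) + Real.log ((D : ℝ) + 2) + 1 ≤ 3 * D := by
      have h1 := log_nat_le (N : ℝ) (by linarith)
      have h2 := Real.log_le_sub_one_of_pos (by linarith : (0 : ℝ) < (D : ℝ) + 2)
      have h3 : (N : ℝ) ≤ D := by exact_mod_cast hDN
      linarith
    have hm2 : m ≤ 2 * (D : ℝ) ^ 2 * (3 * D) := by
      refine hm.trans (mul_le_mul ?_ hB ?_ (by positivity))
      · nlinarith
      · have := Real.log_nonneg (by linarith : (1 : ℝ) ≤ (D : ℝ) + 2)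
        linarith
    have hw : (((9 * (r * E * (r * E)) * D : ℕ) : ℝ) + 1) ≤ 37 * (D : ℝ) ^ 3 := by
      have h1 : ((9 * (r * E * (r * E)) * D : ℕ) : ℝ) =
          9 * (((r * E : ℕ) : ℝ) * ((r * E : ℕ) : ℝ)) * D := by push_cast; ring
      rw [h1]
      have h2 : ((r * E : ℕ) : ℝ) * ((r * E : ℕ) : ℝ) ≤ (2 * D) * (2 * D) :=
        mul_le_mul hdR hdR hd0 (by positivity)
      have h3 := mul_le_mul_of_nonneg_right h2 hD0R.le
      have h4 : (1 : ℝ) ≤ (D : ℝ) ^ 3 := one_le_pow₀ (by linarith)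
      nlinarith
    have hd2' : 2 * ((r * E : ℕ) : ℝ) ^ 2 ≤ 8 * (D : ℝ) ^ 2 := by nlinarith
    have hw0 : (0 : ℝ) ≤ (((9 * (r * E * (r * E)) * D : ℕ) : ℝ) + 1) := by positivity
    calc 2 * ((r * E : ℕ) : ℝ) ^ 2 * ((((9 * (r * E * (r * E)) * D : ℕ) : ℝ) + 1) * m)
        ≤ 2 * ((r * E : ℕ) : ℝ) ^ 2 * ((((9 * (r * E * (r * E)) * D : ℕ) : ℝ) + 1) *
          (2 * (D : ℝ) ^ 2 * (3 * D))) :=
          mul_le_mul_of_nonneg_left (mul_le_mul_of_nonneg_left hm2 hw0) (by positivity)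
      _ ≤ (8 * (D : ℝ) ^ 2) * ((37 * (D : ℝ) ^ 3) * (2 * (D : ℝ) ^ 2 * (3 * D))) := by
          apply mul_le_mul hd2' _ (by positivity) (by positivity)
          exact mul_le_mul_of_nonneg_right hw (by positivity)
      _ = 1776 * (D : ℝ) ^ 8 := by ring
      _ < D * (D : ℝ) ^ 8 := by
          apply mul_lt_mul_of_pos_right _ (by positivity)
          linarith
      _ = ((D ^ 9 : ℕ) : ℝ) := by push_cast; ring

end Vale.Agent.P057.H336
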