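import Vale.Agent.P057.H562.LogM
import Vale.Agent.P057.H336.Num

/-! # P057: from the cost of the block to the hypothesis of the tower -/

namespace Vale.Agent.P057.H336

open Vale.Agent.P057.Lower Vale.Agent.P057.H562

theorem cost_mono {k D : ℕ} {c c' : ℝ} (h : Cost k D c) (hc : c ≤ c') : Cost k D c' := by
  intro η hη
  obtain ⟨m0, hm⟩ := h η hη
  refine ⟨m0, fun p hp hpp => ?_⟩
  obtain ⟨U, h1, h2, h3⟩ := hm p hp hpp
  refine ⟨U, h1, h2, le_trans (Real.exp_le_exp.2 ?_) h3⟩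
  linarith

/-- the literal of the block row -/
def BLK : Prop := ∀ (v D k r L w : ℕ), 2 ≤ v → 1 ≤ D → D + 1 ≤ r * (v * (v - 1) / 2) →
  v.factorial * L ≤ k → v.factorial * (D + 5) ≤ k → r * (v * (v - 1) / 2) < L →
  L ^ ((r * (v * (v - 1) / 2)) * (r * (v * (v - 1) / 2))) < 2 ^ w →
  2 * (((r * (v * (v - 1) / 2) : ℕ)) : ℝ) ^ 2 * (((w : ℝ) + 1) * Real.log (modu v.factorial D)) <
    (L : ℝ) → Cost k D (r * Real.log v.factorial + 2 * Real.log 2)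

theorem hend (BL : BLK) : ∀ θ : ℝ, 0 < θ → ∃ D0 K0 : ℕ, ∀ k, K0 ≤ k → ∀ D, D0 ≤ D → D ^ 10 ≤ k →
    Cost k D (θ * D * Real.log 2) := by
  intro θ hθ
  obtain ⟨v, D0, hv, hD01, hnum⟩ := num θ hθ
  refine ⟨D0, 0, fun k _ D hD hk => ?_⟩
  obtain ⟨h1, h2, h3, h4, h5, h6, h7⟩ := hnum D hD
  have h8 := h7 _ (log_modu v.factorial D (Nat.factorial_pos v))
  refine cost_mono (BL v D k (D / (v * (v - 1) / 2) + 1) (D ^ 9) _ (by omega) (by omega) h1
    (h3.trans hk) (h4.trans hk) h5 h6 h8) h2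

end Vale.Agent.P057.H336
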