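import Vale.Agent.P057.H562.Van
import Vale.Agent.P057.H336.HEnd

/-! # P057: a block with a power saving in `n` (the Vandermonde size grows with `n`) -/

namespace Vale.Agent.P057.H336

open Vale.Agent.P057.Lower Vale.Agent.P057.H562

theorem pow_core (v D : ℕ) (hv : 3 ≤ v) (hDE : v * (v - 1) / 2 ≤ D) (hD2 : 2000 ≤ D)
    (hlogD : Real.log (v.factorial : ℝ) ≤ D) :
    D + 1 ≤ (D / (v * (v - 1) / 2) + 1) * (v * (v - 1) / 2) ∧
    (D / (v * (v - 1) / 2) + 1) * (v * (v - 1) / 2) < D ^ 9 ∧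
    (D ^ 9) ^ (((D / (v * (v - 1) / 2) + 1) * (v * (v - 1) / 2)) *
      ((D / (v * (v - 1) / 2) + 1) * (v * (v - 1) / 2))) <
      2 ^ (9 * (((D / (v * (v - 1) / 2) + 1) * (v * (v - 1) / 2)) *
      ((D / (v * (v - 1) / 2) + 1) * (v * (v - 1) / 2))) * D) ∧
    ∀ m : ℝ, m ≤ ((D : ℝ) + 2) ^ 2 * (Real.log (v.factorial : ℝ) + Real.log ((D : ℝ) + 2) + 1) →
      2 * ((((D / (v * (v - 1) / 2) + 1) * (v * (v - 1) / 2) : ℕ)) : ℝ) ^ 2 *
        ((((9 * (((D / (v * (v - 1) / 2) + 1) * (v * (v - 1) / 2)) *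
      ((D / (v * (v - 1) / 2) + 1) * (v * (v - 1) / 2))) * D : ℕ) : ℝ) + 1) * m) <
        ((D ^ 9 : ℕ) : ℝ) := by
  set E : ℕ := v * (v - 1) / 2 with hE
  set N : ℕ := v.factorial with hN
  have hE1 : 1 ≤ E := by
    have h1 := two_mul_tri v
    have h2 : 3 * 2 ≤ v * (v - 1) := Nat.mul_le_mul hv (by omega)
    omega
  have hN1 : 1 ≤ N := Nat.factorial_pos v
  have hNR : (1 : ℝ) ≤ N := by exact_mod_cast hN1
  have hlogN : 0 ≤ Real.log (N : ℝ) := Real.log_nonneg hNR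
  set r : ℕ := D / E + 1 with hr
  have hd1 : D + 1 ≤ r * E := by
    have := Nat.lt_mul_div_succ D (b := E) (by omega)
    rw [hr, mul_comm]
    omega
  have hd2 : r * E ≤ 2 * D := by
    have h1 : D / E * E ≤ D := Nat.div_mul_le_self D E
    have h2 : r * E = D / E * E + E := by rw [hr]; ring
    omega
  have hDR : (2000 : ℝ) ≤ D := by exact_mod_cast hD2
  have hD0R : (0 : ℝ) < D := by linarith
  refine ⟨hd1, ?_, ?_, ?_⟩
  · calc r * E ≤ 2 * D := hd2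
      _ < D * D := by nlinarith
      _ = D ^ 2 := by ring
      _ ≤ D ^ 9 := Nat.pow_le_pow_right (by omega) (by norm_num)
  · have h1 : D < 2 ^ D := Nat.lt_two_pow_self
    have hpos : 0 < r * E * (r * E) := Nat.mul_pos (by omega) (by omega)
    calc (D ^ 9) ^ (r * E * (r * E)) = D ^ (9 * (r * E * (r * E))) := by rw [← pow_mul]
      _ < (2 ^ D) ^ (9 * (r * E * (r * E))) := Nat.pow_lt_pow_left h1 (by omega)
      _ = 2 ^ (9 * (r * E * (r * E)) * D) := by rw [← pow_mul, mul_comm]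
  · intro m hm
    have hdR : ((r * E : ℕ) : ℝ) ≤ 2 * D := by exact_mod_cast hd2
    have hd0 : (0 : ℝ) ≤ ((r * E : ℕ) : ℝ) := Nat.cast_nonneg _
    have hB : Real.log (N : ℝ) + Real.log ((D : ℝ) + 2) + 1 ≤ 3 * D := by
      have h2 := Real.log_le_sub_one_of_pos (by linarith : (0 : ℝ) < (D : ℝ) + 2)
      linarith
    have hm2 : m ≤ 2 * (D : ℝ) ^ 2 * (3 * D) := by
      refine hm.trans (mul_le_mul ?_ hB ?_ (by positivity))
      · nlinarith
      · have := Real.log_nonneg (by linarith : (1 : ℝ) ≤ (D : ℝ) + 2)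
        linarith
    have hw : (((9 * (r * E * (r * E)) * D : ℕ) : ℝ) + 1) ≤ 37 * (D : ℝ) ^ 3 := by
      have h1 : ((9 * (r * E * (r * E)) * D : ℕ) : ℝ) =
          9 * (((r * E : ℕ) : ℝ) * ((r * E : ℕ) : ℝ)) * D := by push_cast; ring
      rw [h1]
      have h2 : ((r * E : ℕ) : ℝ) * ((r * E : ℕ) : ℝ) ≤ (2 * D) * (2 * D) :=
        mul_le_mul hdR hdR hd0 (by positivity)
      have h3 := mul_le_mul_of_nonneg_right h2 hD0R.le
      have h4 : (1 : ℝ) ≤ (D : ℝ) ^ 3 := one_le_pow₀ (by linarith)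
      nlinarith
    have hd2' : 2 * ((r * E : ℕ) : ℝ) ^ 2 ≤ 8 * (D : ℝ) ^ 2 := by nlinarith
    have hw0 : (0 : ℝ) ≤ (((9 * (r * E * (r * E)) * D : ℕ) : ℝ) + 1) := by positivity
    calc 2 * ((r * E : ℕ) : ℝ) ^ 2 * ((((9 * (r * E * (r * E)) * D : ℕ) : ℝ) + 1) * m)
        ≤ 2 * ((r * E : ℕ) : ℝ) ^ 2 * ((((9 * (r * E * (r * E)) * D : ℕ) : ℝ) + 1) *
          (2 * (D : ℝ) ^ 2 * (3 * D))) :=
          mul_le_mul_of_nonneg_left (mul_le_mul_of_nonneg_left hm2 hw0) (by positivity)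
      _ ≤ (8 * (D : ℝ) ^ 2) * ((37 * (D : ℝ) ^ 3) * (2 * (D : ℝ) ^ 2 * (3 * D))) := by
          apply mul_le_mul hd2' _ (by positivity) (by positivity)
          exact mul_le_mul_of_nonneg_right hw (by positivity)
      _ = 1776 * (D : ℝ) ^ 8 := by ring
      _ < D * (D : ℝ) ^ 8 := by
          apply mul_lt_mul_of_pos_right _ (by positivity)
          linarith
      _ = ((D ^ 9 : ℕ) : ℝ) := by push_cast; ring

/-- `v = (n - 1) / (10 (log₂ n + 1))` is much larger than `√n log n` -/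
theorem v_large (n : ℕ) (hn : 5000 ^ 4 ≤ n) :
    4 * Real.sqrt n * Real.log n + 1 ≤ (((n - 1) / (10 * (Nat.log 2 n + 1)) : ℕ) : ℝ) := by
  have hnR : ((5000 : ℝ) ^ 4) ≤ n := by exact_mod_cast hn
  have hn0 : (0 : ℝ) ≤ n := Nat.cast_nonneg n
  set a : ℝ := Real.sqrt n with ha
  set b : ℝ := Real.sqrt a with hb
  set t : ℝ := Real.sqrt b with ht
  have ha0 : 0 ≤ a := Real.sqrt_nonneg _
  have hb0 : 0 ≤ b := Real.sqrt_nonneg _
  have ht0 : 0 ≤ t := Real.sqrt_nonneg _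
  have ha2 : a * a = n := Real.mul_self_sqrt hn0
  have hb2 : b * b = a := Real.mul_self_sqrt ha0
  have ht2 : t * t = b := Real.mul_self_sqrt hb0
  have ha1 : (5000 : ℝ) ^ 2 ≤ a := by
    apply Real.le_sqrt_of_sq_le
    refine le_trans (le_of_eq (by norm_num)) hnR
  have hb1 : (5000 : ℝ) ≤ b := by
    apply Real.le_sqrt_of_sq_le
    exact ha1
  have ht1 : (1 : ℝ) ≤ t := by
    apply Real.le_sqrt_of_sq_le
    linarith
  have hn8 : (n : ℝ) = t ^ 8 := by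
    rw [← ha2, ← hb2, ← ht2]
    ring
  have ha4 : a = t ^ 4 := by
    rw [← hb2, ← ht2]
    ring
  have hlog : Real.log n ≤ 8 * t := by
    rw [hn8, Real.log_pow]
    have := log_nat_le t (by linarith)
    push_cast
    linarith
  have hlog0 : 0 ≤ Real.log (n : ℝ) := Real.log_nonneg (by linarith [hnR, (by norm_num : (1:ℝ) ≤ (5000 : ℝ) ^ 4)])
  have hl : ((Nat.log 2 n : ℕ) : ℝ) ≤ 12 * t := by
    have hn1 : n ≠ 0 := by
      intro h
      rw [h] at hn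
      norm_num at hn
    have h1 : ((2 ^ Nat.log 2 n : ℕ) : ℝ) ≤ n := by exact_mod_cast Nat.pow_log_le_self 2 hn1
    have h2 : Real.log ((2 : ℝ) ^ Nat.log 2 n) ≤ Real.log n := by
      apply Real.log_le_log (by positivity)
      exact_mod_cast h1
    rw [Real.log_pow] at h2
    have h3 : (0.6931471803 : ℝ) < Real.log 2 := Real.log_two_gt_d9
    have h4 : (0 : ℝ) ≤ ((Nat.log 2 n : ℕ) : ℝ) := Nat.cast_nonneg _
    nlinarith
  have hfl : ((n - 1 : ℕ) : ℝ) / ((10 * (Nat.log 2 n + 1) : ℕ) : ℝ) - 1 ≤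
      (((n - 1) / (10 * (Nat.log 2 n + 1)) : ℕ) : ℝ) := by
    have h1 := Nat.lt_div_mul_add (a := n - 1) (b := 10 * (Nat.log 2 n + 1)) (by omega)
    have h2 : ((n - 1 : ℕ) : ℝ) ≤ (((n - 1) / (10 * (Nat.log 2 n + 1)) : ℕ) : ℝ) *
        ((10 * (Nat.log 2 n + 1) : ℕ) : ℝ) + ((10 * (Nat.log 2 n + 1) : ℕ) : ℝ) := by
      exact_mod_cast h1.le
    have h3 : (0 : ℝ) < ((10 * (Nat.log 2 n + 1) : ℕ) : ℝ) := by positivity
    rw [sub_le_iff_le_add, div_le_iff₀ h3]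
    linarith
  refine le_trans ?_ hfl
  have h3 : (0 : ℝ) < ((10 * (Nat.log 2 n + 1) : ℕ) : ℝ) := by positivity
  rw [le_sub_iff_add_le, le_div_iff₀ h3]
  have h4 : ((10 * (Nat.log 2 n + 1) : ℕ) : ℝ) ≤ 130 * t := by
    push_cast
    linarith
  have h5 : 4 * a * Real.log n + 1 + 1 ≤ 32 * t ^ 5 + 2 := by
    rw [ha4]
    have : t ^ 4 * Real.log n ≤ t ^ 4 * (8 * t) := mul_le_mul_of_nonneg_left hlog (by positivity)
    nlinarith
  have h6 : ((n - 1 : ℕ) : ℝ) = t ^ 8 - 1 := by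
    rw [Nat.cast_sub (by
      have : 1 ≤ 5000 ^ 4 := by norm_num
      omega), hn8]
    norm_num
  rw [h6]
  have h7 : (4 * a * Real.log n + 1 + 1) * ((10 * (Nat.log 2 n + 1) : ℕ) : ℝ) ≤
      (32 * t ^ 5 + 2) * (130 * t) := by
    apply mul_le_mul h5 h4 h3.le (by positivity)
  refine h7.trans ?_
  have h8 : (5000 : ℝ) ≤ t ^ 2 := by
    rw [sq, ht2]
    exact hb1
  have h9 : 5000 * t ^ 6 ≤ t ^ 8 := by
    have : t ^ 8 = t ^ 2 * t ^ 6 := by ring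
    rw [this]
    exact mul_le_mul_of_nonneg_right h8 (by positivity)
  have h10 : t ≤ t ^ 6 := by
    calc t = t ^ 1 := (pow_one t).symm
      _ ≤ t ^ 6 := pow_le_pow_right₀ ht1 (by norm_num)
  have h11 : (1 : ℝ) ≤ t ^ 6 := one_le_pow₀ ht1
  nlinarith

/-- the cost in reals -/
theorem pow_cost (v n D : ℕ) (s lv : ℝ) (hs1 : 1 ≤ s) (hn1 : (1 : ℝ) ≤ n) (hv5 : (5 : ℝ) ≤ v)
    (hl0 : 0 ≤ Real.log (n : ℝ)) (hbig : 4 * s * Real.log n + 1 ≤ v)
    (hvl : (v : ℝ) * Real.log n ≤ 2 * (n * s)) (hns : (n : ℝ) * s * (512 * s) * 2 ≤ D)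
    (hD0R : (0 : ℝ) < D) (hlv0 : 0 ≤ lv) (hlv : lv ≤ v * Real.log n) (E : ℕ)
    (hE : (E : ℝ) = v * (v - 1) / 2) :
    (((D / E + 1 : ℕ)) : ℝ) * lv + 2 * Real.log 2 ≤ s⁻¹ * (D : ℝ) * Real.log 2 := by
  have hs0 : 0 < s := by linarith
  have hER : (0 : ℝ) < E := by
    rw [hE]
    have : (0 : ℝ) < (v : ℝ) * (v - 1) := mul_pos (by linarith) (by linarith)
    linarith
  have c1 : ((D / E : ℕ) : ℝ) ≤ (D : ℝ) / E := Nat.cast_div_le
  have c2 : (((D / E + 1 : ℕ)) : ℝ) ≤ (D : ℝ) / E + 1 := by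
    push_cast
    linarith
  have c3 : (((D / E + 1 : ℕ)) : ℝ) * lv ≤ ((D : ℝ) / E + 1) * (v * Real.log n) :=
    mul_le_mul c2 hlv hlv0 (by positivity)
  have hv1 : (0 : ℝ) < (v : ℝ) - 1 := by linarith
  have c4 : (D : ℝ) / E * (v * Real.log n) ≤ D * (s⁻¹ / 2) := by
    rw [hE]
    have e1 : (D : ℝ) / (v * (v - 1) / 2) * (v * Real.log n) = D * (2 * Real.log n / (v - 1)) := by
      have hv0 : (v : ℝ) ≠ 0 := by linarith
      have hv0' : (v : ℝ) - 1 ≠ 0 := by linarith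
      field_simp
    rw [e1]
    apply mul_le_mul_of_nonneg_left _ hD0R.le
    rw [div_le_iff₀ hv1]
    have e2 : 4 * s * Real.log n ≤ v - 1 := by linarith
    have e3 : s⁻¹ / 2 * (4 * s * Real.log n) ≤ s⁻¹ / 2 * (v - 1) :=
      mul_le_mul_of_nonneg_left e2 (by positivity)
    have e4 : s⁻¹ / 2 * (4 * s * Real.log n) = 2 * Real.log n := by
      field_simp
      ring
    linarith
  have e0 : (D : ℝ) * (s⁻¹ / 512) = D / (512 * s) := by
    field_simp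
  have c5 : (v : ℝ) * Real.log n ≤ D * (s⁻¹ / 512) := by
    refine hvl.trans ?_
    rw [e0, le_div_iff₀ (by positivity)]
    linarith
  have e2 : Real.log 2 < 0.6931471808 := Real.log_two_lt_d9
  have c6 : 2 * Real.log 2 ≤ D * (s⁻¹ / 512) := by
    rw [e0, le_div_iff₀ (by positivity)]
    have e3 : (1 : ℝ) ≤ n * s := one_le_mul_of_one_le_of_one_le hn1 hs1
    have e4 : 2 * Real.log 2 ≤ 2 * (n * s) := by linarith
    have e5 := mul_le_mul_of_nonneg_right e4 (by positivity : (0 : ℝ) ≤ 512 * s)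
    linarith
  have hl2 : (0.6931471803 : ℝ) < Real.log 2 := Real.log_two_gt_d9
  have hDs : 0 < (D : ℝ) * s⁻¹ := by positivity
  have c7 : ((D : ℝ) / E + 1) * (v * Real.log n) = (D : ℝ) / E * (v * Real.log n) +
      v * Real.log n := by ring
  rw [c7] at c3
  have c8 : s⁻¹ * (D : ℝ) * Real.log 2 = (D : ℝ) * s⁻¹ * Real.log 2 := by ring
  have c9 : (D : ℝ) * s⁻¹ * 0.6931471803 ≤ (D : ℝ) * s⁻¹ * Real.log 2 :=
    mul_le_mul_of_nonneg_left hl2.le hDs.le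
  rw [c8]
  linarith

theorem pow_fac (n ℓ v j D k : ℕ) (hn2 : n < 2 ^ (ℓ + 1)) (hv : v = (n - 1) / (10 * (ℓ + 1)))
    (hvn : v ≤ n) (hjn : 10 * j ≤ n - 1) (hD : D = 2 ^ j) (hk : 2 ^ (n - 1) < k) :
    v.factorial * D ^ 9 ≤ k := by
  have e1 : v.factorial ≤ 2 ^ ((ℓ + 1) * v) := by
    calc v.factorial ≤ v ^ v := Nat.factorial_le_pow v
      _ ≤ (2 ^ (ℓ + 1)) ^ v := Nat.pow_le_pow_left (hvn.trans hn2.le) v
      _ = 2 ^ ((ℓ + 1) * v) := by rw [← pow_mul]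
  have e2 : 10 * (ℓ + 1) * v ≤ n - 1 := by
    rw [hv]
    exact Nat.mul_div_le _ _
  have e3 : (ℓ + 1) * v + 9 * j ≤ n - 1 := by
    have : 10 * (ℓ + 1) * v = 10 * ((ℓ + 1) * v) := by ring
    omega
  calc v.factorial * D ^ 9 ≤ 2 ^ ((ℓ + 1) * v) * 2 ^ (9 * j) := by
        refine Nat.mul_le_mul e1 (le_of_eq ?_)
        rw [hD, ← pow_mul, mul_comm]
    _ = 2 ^ ((ℓ + 1) * v + 9 * j) := by rw [← pow_add]
    _ ≤ 2 ^ (n - 1) := Nat.pow_le_pow_right (by norm_num) e3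
    _ ≤ k := hk.le

theorem pow_D (n ℓ j : ℕ) (hn2 : n < 2 ^ (ℓ + 1)) (hj : 2 * ℓ + 12 ≤ j) :
    1024 * n ^ 2 ≤ 2 ^ j := by
  have hn2' : n ^ 2 ≤ 2 ^ (2 * ℓ + 2) := by
    calc n ^ 2 ≤ (2 ^ (ℓ + 1)) ^ 2 := Nat.pow_le_pow_left hn2.le 2
      _ = 2 ^ (2 * ℓ + 2) := by rw [← pow_mul]; congr 1; ring
  calc 1024 * n ^ 2 ≤ 2 ^ 10 * 2 ^ (2 * ℓ + 2) := Nat.mul_le_mul (by norm_num) hn2'
    _ = 2 ^ (2 * ℓ + 12) := by rw [← pow_add]; congr 1; ring
    _ ≤ 2 ^ j := Nat.pow_le_pow_right (by norm_num) hj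

/-- the whole block for generic `v, D` with the numerical facts as hypotheses -/
theorem pow_gen (v n D k : ℕ) (s : ℝ) (hs2 : s * s = n) (hs1 : 1 ≤ s) (hn1 : (1 : ℝ) ≤ n)
    (hv5 : (5 : ℝ) ≤ v) (hvn : v ≤ n) (hbig : 4 * s * Real.log n + 1 ≤ v)
    (hls : Real.log (n : ℝ) ≤ 2 * s) (hDn : 1024 * n ^ 2 ≤ D) (hfac : v.factorial * D ^ 9 ≤ k) :
    Cost k D (s⁻¹ * (D : ℝ) * Real.log 2) := by
  have hl0 : 0 ≤ Real.log (n : ℝ) := Real.log_nonneg hn1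
  have hn1N : 1 ≤ n := by exact_mod_cast hn1
  have hv5N : 5 ≤ v := by exact_mod_cast hv5
  have hv3 : 3 ≤ v := by omega
  have hn5 : 5 ≤ n := le_trans hv5N hvn
  have hDnR : (1024 : ℝ) * (n : ℝ) ^ 2 ≤ D := by exact_mod_cast hDn
  have hnn : 25 ≤ n ^ 2 := by
    calc 25 = 5 ^ 2 := by norm_num
      _ ≤ n ^ 2 := Nat.pow_le_pow_left hn5 2
  have hD2 : 2000 ≤ D := by omega
  have hD0R : (0 : ℝ) < D := by
    have : (2000 : ℝ) ≤ D := by exact_mod_cast hD2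
    linarith
  have hDE : v * (v - 1) / 2 ≤ D := by
    calc v * (v - 1) / 2 ≤ v * (v - 1) := Nat.div_le_self _ _
      _ ≤ n * n := Nat.mul_le_mul hvn (by omega)
      _ = n ^ 2 := (sq n).symm
      _ ≤ D := by omega
  have hlogv : Real.log (v.factorial : ℝ) ≤ v * Real.log n := by
    have h1 : ((v.factorial : ℕ) : ℝ) ≤ (v : ℝ) ^ v := by exact_mod_cast Nat.factorial_le_pow v
    have h2 : Real.log (v.factorial : ℝ) ≤ Real.log ((v : ℝ) ^ v) :=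
      Real.log_le_log (by exact_mod_cast Nat.factorial_pos v) h1
    rw [Real.log_pow] at h2
    refine h2.trans (mul_le_mul_of_nonneg_left ?_ (by positivity))
    exact Real.log_le_log (by linarith) (by exact_mod_cast hvn)
  have hvnR : (v : ℝ) ≤ n := by exact_mod_cast hvn
  have hn0 : (0 : ℝ) ≤ n := by linarith
  have hvl : (v : ℝ) * Real.log n ≤ 2 * (n * s) := by
    have h1 : (v : ℝ) * Real.log n ≤ n * (2 * s) := mul_le_mul hvnR hls hl0 hn0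
    linarith
  have hns : (n : ℝ) * s * (512 * s) * 2 ≤ D := by
    have : (n : ℝ) * s * (512 * s) * 2 = 1024 * n ^ 2 := by
      rw [show (n : ℝ) * s * (512 * s) * 2 = 1024 * n * (s * s) by ring, hs2]
      ring
    rw [this]
    exact hDnR
  have hlogD : Real.log (v.factorial : ℝ) ≤ D := by
    refine (hlogv.trans hvl).trans (le_trans ?_ hns)
    have h1 : (0 : ℝ) ≤ n * s := by positivity
    have h2 : (n : ℝ) * s * (512 * s) * 2 = (2 * (n * s)) * (512 * s) := by ring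
    rw [h2]
    apply le_mul_of_one_le_right (by positivity)
    linarith
  obtain ⟨h1, h2, h3, h4⟩ := pow_core v D hv3 hDE hD2 hlogD
  have h8 := h4 _ (log_modu v.factorial D (Nat.factorial_pos v))
  have hfac2 : v.factorial * (D + 5) ≤ k := by
    refine le_trans (Nat.mul_le_mul_left _ ?_) hfac
    calc D + 5 ≤ 2 * D := by omega
      _ ≤ D * D := Nat.mul_le_mul_right _ (by omega)
      _ = D ^ 2 := by ring
      _ ≤ D ^ 9 := Nat.pow_le_pow_right (by omega) (by norm_num)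
  have hE : (((v * (v - 1) / 2 : ℕ)) : ℝ) = v * (v - 1) / 2 := by
    have h1 := two_mul_tri v
    have h2 : (2 : ℝ) * ((v * (v - 1) / 2 : ℕ) : ℝ) = v * ((v - 1 : ℕ) : ℝ) := by exact_mod_cast h1
    rw [Nat.cast_sub (by omega : 1 ≤ v)] at h2
    push_cast at h2 ⊢
    linarith
  exact cost_mono (cost_vand v D k (D / (v * (v - 1) / 2) + 1) (D ^ 9) _ (by omega) h1
    hfac hfac2 h2 h3 h8)
    (pow_cost v n D s _ hs1 hn1 hv5 hl0 hbig hvl hns hD0R
      (Real.log_nonneg (by exact_mod_cast Nat.factorial_pos v)) hlogv _ hE)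

/-- P1: the block at degree `2 ^ j`, with the gain `1 / √n` -/
theorem pow_block : ∃ n0 : ℕ, ∀ n, n0 ≤ n → ∀ k : ℕ, 2 ^ (n - 1) < k →
    ∀ j, 2 * Nat.log 2 n + 12 ≤ j → 10 * j ≤ n - 1 →
    Cost k (2 ^ j) ((Real.sqrt n)⁻¹ * ((2 ^ j : ℕ) : ℝ) * Real.log 2) := by
  refine ⟨5000 ^ 4, fun n hn k hk j hj hjn => ?_⟩
  have hbig := v_large n hn
  have hnpos : 1 ≤ n := le_trans (by norm_num) hn
  have hnR : ((5000 : ℝ) ^ 4) ≤ n := by exact_mod_cast hn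
  have hn0 : (0 : ℝ) ≤ n := Nat.cast_nonneg n
  have hn1R : (1 : ℝ) ≤ n := by exact_mod_cast hnpos
  have hlog1 : 1 ≤ Real.log (n : ℝ) := by
    rw [Real.le_log_iff_exp_le (by linarith)]
    have := Real.exp_one_lt_d9
    have h5 : (3 : ℝ) ≤ (5000 : ℝ) ^ 4 := by norm_num
    linarith
  have hs2 : Real.sqrt n * Real.sqrt n = n := Real.mul_self_sqrt hn0
  have hs1 : 1 ≤ Real.sqrt n := by
    apply Real.le_sqrt_of_sq_le
    linarith
  have hs0 : 0 < Real.sqrt n := by linarith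
  have h41 : (1 : ℝ) ≤ Real.sqrt n * Real.log n := one_le_mul_of_one_le_of_one_le hs1 hlog1
  have hlogs : Real.log (n : ℝ) ≤ 2 * Real.sqrt n := by
    have h4 := log_nat_le (Real.sqrt n) hs0
    have h5 : Real.log (n : ℝ) = 2 * Real.log (Real.sqrt n) := by
      rw [Real.log_sqrt hn0]
      ring
    rw [h5]
    linarith
  have hn2 : n < 2 ^ (Nat.log 2 n + 1) := Nat.lt_pow_succ_log_self (by norm_num) n
  have hvn : (n - 1) / (10 * (Nat.log 2 n + 1)) ≤ n := le_trans (Nat.div_le_self _ _) (by omega)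
  exact pow_gen _ n (2 ^ j) k (Real.sqrt n) hs2 hs1 hn1R (by linarith) hvn hbig hlogs
    (pow_D n _ j hn2 hj) (pow_fac n (Nat.log 2 n) _ j _ k hn2 rfl hvn hjn rfl hk)

end Vale.Agent.P057.H336
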