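import Mathlib

/-!
# P057: a Vandermonde determinant kills small sequences

`∏_{i<j<n} (X^(j-i) - 1)` has coefficient sum (absolute values) at most `n!` and is divisible by
`(X - 1)^(n(n-1)/2)`.
-/

namespace Vale.Agent.P057.H336

open Polynomial Finset

/-- the shift -/
def shf : Module.End ℤ (ℕ → ℤ) where
  toFun u j := u (j + 1)
  map_add' _ _ := rfl
  map_smul' _ _ := rfl

theorem shf_pow (i : ℕ) (u : ℕ → ℤ) (j : ℕ) : (shf ^ i) u j = u (j + i) := by
  induction i generalizing j with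
  | zero => simp
  | succ i ih =>
    rw [pow_succ', Module.End.mul_apply]
    change (shf ^ i) u (j + 1) = _
    rw [ih]
    congr 1
    omega

theorem aeval_shf (Q : ℤ[X]) (u : ℕ → ℤ) (j : ℕ) :
    (aeval shf Q) u j = ∑ i ∈ range (Q.natDegree + 1), Q.coeff i * u (j + i) := by
  rw [Polynomial.aeval_eq_sum_range, LinearMap.sum_apply, Finset.sum_apply]
  refine Finset.sum_congr rfl fun i _ => ?_
  rw [LinearMap.smul_apply, Pi.smul_apply, shf_pow, smul_eq_mul]

theorem fwd_eq (h : ℕ) (u : ℕ → ℤ) : fwdDiff h u = aeval shf (X ^ h - 1 : ℤ[X]) u := by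
  funext j
  rw [map_sub, map_pow, aeval_X, map_one, LinearMap.sub_apply, Pi.sub_apply, shf_pow]
  rfl

theorem fwd_iter (h m : ℕ) (u : ℕ → ℤ) :
    (fwdDiff h)^[m] u = aeval shf ((X ^ h - 1 : ℤ[X]) ^ m) u := by
  induction m with
  | zero => simp
  | succ m ih =>
    rw [Function.iterate_succ_apply', ih, fwd_eq, pow_succ', map_mul, Module.End.mul_apply]

theorem window (Q W : ℤ[X]) (u : ℕ → ℤ) (j : ℕ) :
    (aeval shf (Q * W)) u j = ∑ i ∈ range (W.natDegree + 1), W.coeff i * (aeval shf Q) u (j + i) := by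
  rw [mul_comm, map_mul, Module.End.mul_apply, aeval_shf]

/-- the polynomial -/
noncomputable def vp (n : ℕ) : ℤ[X] :=
  ∏ i : Fin n, ∏ j ∈ Ioi i, (X ^ ((j : ℕ) - (i : ℕ)) - 1)

theorem vp_monic (n : ℕ) : (vp n).Monic := by
  unfold vp
  refine monic_prod_of_monic _ _ fun i _ => monic_prod_of_monic _ _ fun j hj => ?_
  have h : (i : ℕ) < j := by
    have := mem_Ioi.1 hj
    exact this
  have := monic_X_pow_sub_C (1 : ℤ) (n := (j : ℕ) - i) (by omega)
  simpa using this

theorem vp_det (n : ℕ) : ∃ a : ℕ, (X : ℤ[X]) ^ a * vp n =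
    ∑ σ : Equiv.Perm (Fin n), (Equiv.Perm.sign σ : ℤ) • (X : ℤ[X]) ^ (∑ i : Fin n, (σ i : ℕ) * i) := by
  refine ⟨∑ i : Fin n, ∑ j ∈ Ioi i, (i : ℕ), ?_⟩
  have h1 := Matrix.det_vandermonde (fun i : Fin n => (X : ℤ[X]) ^ (i : ℕ))
  have h2 : ∏ i : Fin n, ∏ j ∈ Ioi i, ((X : ℤ[X]) ^ (j : ℕ) - X ^ (i : ℕ)) =
      X ^ (∑ i : Fin n, ∑ j ∈ Ioi i, (i : ℕ)) * vp n := by
    unfold vp
    rw [← Finset.prod_pow_eq_pow_sum, ← Finset.prod_mul_distrib]
    refine Finset.prod_congr rfl fun i _ => ?_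
    rw [← Finset.prod_pow_eq_pow_sum, ← Finset.prod_mul_distrib]
    refine Finset.prod_congr rfl fun j hj => ?_
    have hlt : i < j := mem_Ioi.1 hj
    have h : (i : ℕ) < j := hlt
    rw [mul_sub, mul_one, ← pow_add]
    congr 2
    omega
  rw [← h2, ← h1, Matrix.det_apply]
  refine Finset.sum_congr rfl fun σ _ => ?_
  rw [Units.smul_def]
  congr 1
  rw [← Finset.prod_pow_eq_pow_sum]
  refine Finset.prod_congr rfl fun i _ => ?_
  rw [Matrix.vandermonde_apply, ← pow_mul]

theorem vp_norm (n m : ℕ) : ∑ i ∈ range m, |(vp n).coeff i| ≤ (n.factorial : ℤ) := by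
  obtain ⟨a, ha⟩ := vp_det n
  have hc : ∀ i, |(vp n).coeff i| ≤ ∑ σ : Equiv.Perm (Fin n),
      (if i + a = ∑ l : Fin n, (σ l : ℕ) * l then (1 : ℤ) else 0) := by
    intro i
    have h1 : (vp n).coeff i = ((X : ℤ[X]) ^ a * vp n).coeff (i + a) := by
      rw [Polynomial.coeff_X_pow_mul]
    rw [h1, ha, Polynomial.finsetSum_coeff]
    refine (Finset.abs_sum_le_sum_abs _ _).trans (Finset.sum_le_sum fun σ _ => ?_)
    rw [Polynomial.coeff_smul, Polynomial.coeff_X_pow, smul_eq_mul, abs_mul]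
    have hs : |((Equiv.Perm.sign σ : ℤˣ) : ℤ)| = 1 := Int.isUnit_iff_abs_eq.1 (Units.isUnit _)
    rw [hs, one_mul]
    split_ifs <;> simp
  calc ∑ i ∈ range m, |(vp n).coeff i|
      ≤ ∑ i ∈ range m, ∑ σ : Equiv.Perm (Fin n),
        (if i + a = ∑ l : Fin n, (σ l : ℕ) * l then (1 : ℤ) else 0) :=
        Finset.sum_le_sum fun i _ => hc i
    _ = ∑ σ : Equiv.Perm (Fin n), ∑ i ∈ range m,
        (if i + a = ∑ l : Fin n, (σ l : ℕ) * l then (1 : ℤ) else 0) := Finset.sum_comm
    _ ≤ ∑ σ : Equiv.Perm (Fin n), 1 := by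
        refine Finset.sum_le_sum fun σ _ => ?_
        rw [← Finset.sum_filter, Finset.sum_const, nsmul_eq_mul, mul_one]
        have : ((range m).filter fun i => i + a = ∑ l : Fin n, (σ l : ℕ) * l).card ≤ 1 := by
          refine Finset.card_le_one.2 fun x hx y hy => ?_
          have h1 := (mem_filter.1 hx).2
          have h2 := (mem_filter.1 hy).2
          omega
        exact_mod_cast this
    _ = (n.factorial : ℤ) := by
        rw [Finset.sum_const, nsmul_eq_mul, mul_one, Finset.card_univ, Fintype.card_perm,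
          Fintype.card_fin]

theorem card_pairs (n : ℕ) : ∑ i : Fin n, (Ioi i).card = n * (n - 1) / 2 := by
  have h1 : ∑ i : Fin n, (Ioi i).card = ∑ i ∈ range n, (n - 1 - i) := by
    rw [← Fin.sum_univ_eq_sum_range (fun i => n - 1 - i) n]
    refine Finset.sum_congr rfl fun i _ => ?_
    rw [Fin.card_Ioi]
  rw [h1, Finset.sum_range_reflect (fun i => i) n, Finset.sum_range_id]

theorem pow_dvd_vp (n : ℕ) : (X - 1 : ℤ[X]) ^ (n * (n - 1) / 2) ∣ vp n := by
  rw [← card_pairs, ← Finset.prod_pow_eq_pow_sum]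
  unfold vp
  refine Finset.prod_dvd_prod_of_dvd _ _ fun i _ => ?_
  rw [← Finset.prod_const]
  refine Finset.prod_dvd_prod_of_dvd _ _ fun j _ => ?_
  have := sub_dvd_pow_sub_pow (X : ℤ[X]) 1 ((j : ℕ) - i)
  simpa using this

theorem vp_dvd (n : ℕ) :
    vp n ∣ (X ^ n.factorial - 1 : ℤ[X]) ^ (n * (n - 1) / 2) := by
  rw [← card_pairs, ← Finset.prod_pow_eq_pow_sum]
  unfold vp
  refine Finset.prod_dvd_prod_of_dvd _ _ fun i _ => ?_
  rw [← Finset.prod_const]
  refine Finset.prod_dvd_prod_of_dvd _ _ fun j hj => ?_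
  have hlt : i < j := mem_Ioi.1 hj
  have h : (i : ℕ) < j := hlt
  have hj' : (j : ℕ) < n := j.2
  obtain ⟨q, hq⟩ := Nat.dvd_factorial (m := (j : ℕ) - i) (n := n) (by omega) (by omega)
  have := sub_dvd_pow_sub_pow ((X : ℤ[X]) ^ ((j : ℕ) - i)) 1 q
  rw [hq, pow_mul]
  simpa using this

theorem vp_bound (n k : ℕ) (H : ℤ) (u : ℕ → ℤ) (hu : ∀ j < k, |u j| ≤ H) (j : ℕ)
    (hj : j + (vp n).natDegree < k) : |(aeval shf (vp n)) u j| ≤ n.factorial * H := by
  have hH : 0 ≤ H := (abs_nonneg _).trans (hu j (by omega))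
  rw [aeval_shf]
  refine (Finset.abs_sum_le_sum_abs _ _).trans ?_
  calc ∑ i ∈ range ((vp n).natDegree + 1), |(vp n).coeff i * u (j + i)|
      ≤ ∑ i ∈ range ((vp n).natDegree + 1), |(vp n).coeff i| * H := by
        refine Finset.sum_le_sum fun i hi => ?_
        rw [abs_mul]
        have := mem_range.1 hi
        exact mul_le_mul_of_nonneg_left (hu _ (by omega)) (abs_nonneg _)
    _ = (∑ i ∈ range ((vp n).natDegree + 1), |(vp n).coeff i|) * H := by rw [Finset.sum_mul]
    _ ≤ n.factorial * H := mul_le_mul_of_nonneg_right (vp_norm n _) hH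

theorem vp_pow_bound (n k : ℕ) (H : ℤ) (u : ℕ → ℤ) (hu : ∀ j < k, |u j| ≤ H) (r : ℕ) :
    ∀ j, j + r * (vp n).natDegree < k →
      |(aeval shf (vp n ^ r)) u j| ≤ (n.factorial : ℤ) ^ r * H := by
  induction r with
  | zero =>
    intro j hj
    simpa using hu j (by simpa using hj)
  | succ r ih =>
    intro j hj
    rw [pow_succ', map_mul, Module.End.mul_apply, pow_succ', mul_assoc]
    refine vp_bound n (k - r * (vp n).natDegree) _ _ (fun i hi => ih i (by omega)) j ?_
    have : (r + 1) * (vp n).natDegree = r * (vp n).natDegree + (vp n).natDegree := by ring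
    omega

theorem vand_kill (n r D k p h : ℕ) (hn : 2 ≤ n) (hr : D + 1 ≤ r * (n * (n - 1) / 2))
    (hp : n.factorial ^ r * h < p) (u : ℕ → ℤ) (hu : ∀ j < k, |u j| ≤ h)
    (hd : ∀ j, j + (D + 1) < k → (p : ℤ) ∣ (fwdDiff 1)^[D + 1] u j) :
    ∀ j, j + n.factorial * (r * (n * (n - 1) / 2)) < k →
      (fwdDiff n.factorial)^[r * (n * (n - 1) / 2)] u j = 0 := by
  have _ := hn
  have hmon : (vp n ^ r).Monic := (vp_monic n).pow r
  have hdeg : (vp n ^ r).natDegree = r * (vp n).natDegree := (vp_monic n).natDegree_pow r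
  -- the power of `vp` kills `u`
  have hkill : ∀ j, j + r * (vp n).natDegree < k → (aeval shf (vp n ^ r)) u j = 0 := by
    intro j hj
    have h1 := vp_pow_bound n k h u hu r j hj
    have h2 : (p : ℤ) ∣ (aeval shf (vp n ^ r)) u j := by
      obtain ⟨W, hW⟩ : (X - 1 : ℤ[X]) ^ (D + 1) ∣ vp n ^ r := by
        refine (pow_dvd_pow _ hr).trans ?_
        rw [mul_comm r, pow_mul]
        exact pow_dvd_pow_of_dvd (pow_dvd_vp n) r
      have hX : (X - 1 : ℤ[X]).natDegree = 1 := by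
        have := natDegree_X_sub_C (1 : ℤ)
        simpa using this
      have hdW : (vp n ^ r).natDegree = (D + 1) + W.natDegree := by
        have hne : vp n ^ r ≠ 0 := hmon.ne_zero
        rw [hW] at hne ⊢
        rw [natDegree_mul (left_ne_zero_of_mul hne) (right_ne_zero_of_mul hne), natDegree_pow, hX,
          mul_one]
      rw [hW, window]
      refine Finset.dvd_sum fun i hi => Dvd.dvd.mul_left ?_ _
      have hi' := mem_range.1 hi
      have h3 := hd (j + i) (by omega)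
      rw [fwd_iter, pow_one] at h3
      exact h3
    have h4 : |(aeval shf (vp n ^ r)) u j| < (p : ℤ) := by
      refine h1.trans_lt ?_
      exact_mod_cast hp
    exact Int.eq_zero_of_abs_lt_dvd h2 h4
  intro j hj
  rw [fwd_iter]
  obtain ⟨W, hW⟩ : vp n ^ r ∣ (X ^ n.factorial - 1 : ℤ[X]) ^ (r * (n * (n - 1) / 2)) := by
    rw [mul_comm r, pow_mul]
    exact pow_dvd_pow_of_dvd (vp_dvd n) r
  have hN : 0 < n.factorial := Nat.factorial_pos n
  have hX : (X ^ n.factorial - 1 : ℤ[X]).natDegree = n.factorial := by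
    have := natDegree_X_pow_sub_C (n := n.factorial) (r := (1 : ℤ))
    simpa using this
  have hmX : (X ^ n.factorial - 1 : ℤ[X]).Monic := by
    have := monic_X_pow_sub_C (1 : ℤ) hN.ne'
    simpa using this
  have hdW : (r * (n * (n - 1) / 2)) * n.factorial = r * (vp n).natDegree + W.natDegree := by
    have hne : (X ^ n.factorial - 1 : ℤ[X]) ^ (r * (n * (n - 1) / 2)) ≠ 0 := (hmX.pow _).ne_zero
    have h5 : ((X ^ n.factorial - 1 : ℤ[X]) ^ (r * (n * (n - 1) / 2))).natDegree =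
        (r * (n * (n - 1) / 2)) * n.factorial := by
      rw [hmX.natDegree_pow, hX]
    rw [← h5, hW]
    rw [hW] at hne
    rw [natDegree_mul (left_ne_zero_of_mul hne) (right_ne_zero_of_mul hne), hdeg]
  rw [hW, window]
  refine Finset.sum_eq_zero fun i hi => ?_
  have hi' := mem_range.1 hi
  rw [hkill (j + i), mul_zero]
  have : n.factorial * (r * (n * (n - 1) / 2)) = (r * (n * (n - 1) / 2)) * n.factorial :=
    mul_comm _ _
  omega

end Vale.Agent.P057.H336
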